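import Crest.Agent.X262.Node22.Defs

/-! # Node algebra over a field: homogeneity, Euler identity, dimensions, the two filtrations -/

set_option autoImplicit false
set_option linter.unusedSectionVars false

noncomputable section

namespace Crest.Agent.X262.Node22

open Crest.Agent.X277 Crest.Agent.X277.BD Crest.Agent.X262.Vb Module MvPolynomial

variable {J : Type} [Fintype J] [DecidableEq J] {io : J → Type} [∀ j, Fintype (io j)]
  [∀ j, DecidableEq (io j)] {A : Type} [Fintype A] {E : Type} [Field E] [Algebra ℂ E]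
  {I I₁ I₂ : Type} [Fintype I] [Fintype I₁] [Fintype I₂]

/-! ### polynomials -/

/-- multihomogeneity at points with values in any algebra -/
theorem mh_aeval {R : Type*} [CommRing R] [Algebra ℂ R] {q : MvPolynomial (Vr io) ℂ} {κ : J → ℕ}
    (h : MH q κ) (c : J → R) (y : Vr io → R) :
    aeval (fun v => c v.1 * y v) q = (∏ j, c j ^ κ j) * aeval y q := by
  have key : ∀ d : Vr io →₀ ℕ, (d.prod fun v k => c v.1 ^ k) =
      ∏ j, c j ^ Finsupp.weight (fun v : Vr io => (Pi.single v.1 1 : J → ℕ)) d j := by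
    intro d
    induction d using Finsupp.induction_linear with
    | zero => simp
    | add a b ha hb =>
      rw [Finsupp.prod_add_index' (by simp) (by simp [pow_add]), ha, hb, map_add]
      simp [pow_add, Finset.prod_mul_distrib]
    | single v k =>
      rw [Finsupp.prod_single_index (by simp), Finsupp.weight_single,
        Finset.prod_eq_single v.1 (fun j _ hj => by simp [hj]) (by simp)]
      simp
  unfold MH at h
  induction h using IsWeightedHomogeneous.induction_on with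
  | zero => simp
  | add p q _ _ hp hq => rw [map_add, map_add, hp, hq, mul_add]
  | monomial d r hr =>
    simp only [aeval_monomial, mul_pow, Finsupp.prod_mul, key, hr]
    ring

theorem aeval_dual (y a : Vr io → E) (p : MvPolynomial (Vr io) ℂ) :
    aeval (fun v => (TrivSqZeroExt.inl (y v) + TrivSqZeroExt.inr (a v) : TrivSqZeroExt E E)) p =
      TrivSqZeroExt.inl (aeval y p) + TrivSqZeroExt.inr (∑ v, aeval y (pderiv v p) * a v) := by
  induction p using MvPolynomial.induction_on with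
  | C r => ext <;> simp [TrivSqZeroExt.algebraMap_eq_inl']
  | add p q hp hq => rw [map_add, hp, hq]; ext <;> simp [add_mul, Finset.sum_add_distrib]
  | mul_X p n hp =>
    rw [map_mul, hp]
    ext
    · simp
    · simp [Derivation.leibniz, add_mul, Finset.sum_add_distrib, Pi.single_apply,
        apply_ite, mul_assoc, Finset.sum_mul, mul_comm (y n)]

/-- first order Taylor formula -/
theorem taylor {R : Type*} [CommRing R] [Algebra ℂ R] (𝔞 : Ideal R) (y τ : Vr io → R)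
    (h : ∀ v, τ v ∈ 𝔞) (p : MvPolynomial (Vr io) ℂ) :
    aeval (y + τ) p - aeval y p - ∑ v, aeval y (pderiv v p) * τ v ∈ 𝔞 * 𝔞 := by
  induction p using MvPolynomial.induction_on with
  | C r => simp
  | add p q hp hq =>
    convert add_mem hp hq using 1
    simp [add_mul, Finset.sum_add_distrib]; ring
  | mul_X p n hp =>
    have h1 : aeval (y + τ) p - aeval y p ∈ 𝔞 := by
      have := add_mem (Ideal.mul_le_left hp)
        (sum_mem fun v (_ : v ∈ Finset.univ) => 𝔞.mul_mem_left (aeval y (pderiv v p)) (h v))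
      simpa using this
    convert add_mem (Ideal.mul_mem_right (y n) _ hp) (Ideal.mul_mem_mul h1 (h n)) using 1
    simp [Derivation.leibniz, add_mul, Finset.sum_add_distrib, Pi.single_apply,
      apply_ite, mul_assoc, ← Finset.mul_sum]
    ring

/-- rescaling of a vector, factor by factor -/
def vsc (c : J → E) : (Vr io → E) →ₗ[E] (Vr io → E) where
  toFun a v := c v.1 * a v
  map_add' _ _ := funext fun _ => mul_add _ _ _
  map_smul' _ _ := funext fun _ => mul_left_comm _ _ _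

@[simp] theorem vsc_apply (c : J → E) (a : Vr io → E) (v : Vr io) : vsc c a v = c v.1 * a v := rfl

theorem vec_scl (c : J → E) (y : Pnt io E) : vec (scl c y) = vsc c (vec y) := rfl

theorem scl_scl (c c' : J → E) (y : Pnt io E) : scl c (scl c' y) = scl (c * c') y := by
  funext j i; simp [scl, mul_assoc]

@[simp] theorem scl_one (y : Pnt io E) : scl 1 y = y := by funext j i; simp [scl]

theorem chr_mul (c c' : J → E) (κ : J → ℕ) : chr (c * c') κ = chr c κ * chr c' κ := by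
  simp [chr, mul_pow, Finset.prod_mul_distrib]

@[simp] theorem chr_one (κ : J → ℕ) : chr (1 : J → E) κ = 1 := by simp [chr]

theorem chr_ne {c : J → E} (hc : ∀ j, c j ≠ 0) (κ : J → ℕ) : chr c κ ≠ 0 :=
  Finset.prod_ne_zero_iff.2 fun j _ => pow_ne_zero _ (hc j)

theorem pv_scl {q : MvPolynomial (Vr io) ℂ} {κ : J → ℕ} (h : MH q κ) (c : J → E) (y : Pnt io E) :
    pv (scl c y) q = chr c κ * pv y q := mh_aeval h c (vec y)

theorem jac_apply (T : Tgt io A) (y : Pnt io E) (a : Vr io → E) (α : A) :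
    T.jac y a α = ∑ v, aeval (vec y) (pderiv v (T.F α)) * a v := by
  simp only [Tgt.jac, Matrix.toLin'_apply, Matrix.mulVec, dotProduct, Matrix.of_apply]; rfl

theorem jac_scl (T : Tgt io A) (c : J → E) (y : Pnt io E) (a : Vr io → E) (α : A) :
    T.jac (scl c y) (vsc c a) α = chr c (T.k α) * T.jac y a α := by
  have h := mh_aeval (T.hom α) (fun j => (TrivSqZeroExt.inl (c j) : TrivSqZeroExt E E))
    (fun v => TrivSqZeroExt.inl (vec y v) + TrivSqZeroExt.inr (a v))
  have e : (fun v : Vr io => (TrivSqZeroExt.inl (c v.1) : TrivSqZeroExt E E) *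
      (TrivSqZeroExt.inl (vec y v) + TrivSqZeroExt.inr (a v))) =
      fun v => TrivSqZeroExt.inl (vec (scl c y) v) + TrivSqZeroExt.inr (vsc c a v) := by
    funext v; ext <;> simp [vec_scl]
  have e2 : ∏ j, (TrivSqZeroExt.inl (c j) : TrivSqZeroExt E E) ^ T.k α j =
      TrivSqZeroExt.inl (chr c (T.k α)) := by
    have := map_prod (TrivSqZeroExt.inlHom E E) (fun j => c j ^ T.k α j) Finset.univ
    simp only [map_pow] at this
    exact this.symm
  rw [e, e2, aeval_dual, aeval_dual] at h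
  have := congrArg TrivSqZeroExt.snd h
  simpa [jac_apply] using this

/-- Euler identity at a point of the target -/
theorem jac_euler (T : Tgt io A) {y : Pnt io E} (h : T.On y) (l : J → E) :
    T.jac y (vsc l (vec y)) = 0 := by
  funext α
  have h1 := mh_aeval (T.hom α)
    (fun j => (TrivSqZeroExt.inl 1 + TrivSqZeroExt.inr (l j) : TrivSqZeroExt E E))
    (fun v => TrivSqZeroExt.inl (vec y v) + TrivSqZeroExt.inr 0)
  have e : (fun v : Vr io => (TrivSqZeroExt.inl 1 + TrivSqZeroExt.inr (l v.1) : TrivSqZeroExt E E) *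
      (TrivSqZeroExt.inl (vec y v) + TrivSqZeroExt.inr 0)) =
      fun v => TrivSqZeroExt.inl (vec y v) + TrivSqZeroExt.inr (vsc l (vec y) v) := by
    funext v; ext <;> simp [mul_comm]
  rw [e, aeval_dual, aeval_dual, show aeval (vec y) (T.F α) = 0 from h α] at h1
  have := congrArg TrivSqZeroExt.snd h1
  simpa [jac_apply] using this

theorem on_scl (T : Tgt io A) {y : Pnt io E} (h : T.On y) (c : J → E) : T.On (scl c y) :=
  fun α => by rw [pv_scl (T.hom α), h α, mul_zero]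

theorem nz_scl {y : Pnt io E} (h : NZ y) {c : J → E} (hc : ∀ j, c j ≠ 0) : NZ (scl c y) :=
  fun j => (h j).imp fun _ hi => mul_ne_zero (hc j) hi

theorem scl_inj {y : Pnt io E} (h : NZ y) {c c' : J → E} (e : scl c y = scl c' y) : c = c' := by
  funext j
  obtain ⟨i, hi⟩ := h j
  exact mul_right_cancel₀ hi (congrFun (congrFun e j) i)

theorem Par.refl (y : Pnt io E) : Par y y := ⟨1, fun _ => one_ne_zero, (scl_one y).symm⟩

theorem Par.symm {y y' : Pnt io E} (h : Par y y') : Par y' y := by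
  obtain ⟨c, hc, rfl⟩ := h
  refine ⟨fun j => (c j)⁻¹, fun j => inv_ne_zero (hc j), ?_⟩
  funext j i; simp [scl, hc j]

theorem Par.trans {y y' y'' : Pnt io E} (h : Par y y') (h' : Par y' y'') : Par y y'' := by
  obtain ⟨c, hc, rfl⟩ := h
  obtain ⟨c', hc', rfl⟩ := h'
  exact ⟨c * c', fun j => mul_ne_zero (hc j) (hc' j), scl_scl _ _ _⟩

theorem vsc_surj {c : J → E} (hc : ∀ j, c j ≠ 0) (a : Vr io → E) : ∃ b, vsc c b = a :=
  ⟨vsc (fun j => (c j)⁻¹) a, funext fun v => by simp [hc v.1]⟩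

theorem mem_Nm_scl (T : Tgt io A) {c : J → E} (hc : ∀ j, c j ≠ 0) {y : Pnt io E} {n : A → E} :
    (fun α => chr c (T.k α) * n α) ∈ T.Nm (scl c y) ↔ n ∈ T.Nm y := by
  constructor
  · rintro ⟨a, ha⟩
    obtain ⟨b, rfl⟩ := vsc_surj hc a
    refine ⟨b, funext fun α => mul_left_cancel₀ (chr_ne hc (T.k α)) ?_⟩
    rw [← jac_scl]; exact congrFun ha α
  · rintro ⟨a, rfl⟩
    exact ⟨vsc c a, funext fun α => jac_scl T c y a α⟩

/-! ### minors -/

theorem wg_vsc (c : J → E) (a b : Vr io → E) : wg (vsc c a) b = wg a (vsc c b) := by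
  funext x; simp only [wg_apply, vsc_apply]; ring

theorem wg_swap (a b : Vr io → E) : wg a b = -wg b a := by
  funext x; simp only [wg_apply, Pi.neg_apply]; ring

theorem wg_vsc_self (c : J → E) (a : Vr io → E) : wg (vsc c a) a = 0 := by
  funext x; simp only [wg_apply, vsc_apply, Pi.zero_apply]; ring

theorem wg_eq_zero {y : Pnt io E} (h : NZ y) {τ : Vr io → E} :
    wg τ (vec y) = 0 ↔ ∃ l : J → E, τ = vsc l (vec y) := by
  refine ⟨fun h0 => ?_, by rintro ⟨l, rfl⟩; exact wg_vsc_self _ _⟩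
  choose i hi using h
  refine ⟨fun j => τ ⟨j, i j⟩ / y j (i j), funext fun v => ?_⟩
  have := congrFun h0 ⟨v.1, v.2, i v.1⟩
  simp only [wg_apply, vec, Pi.zero_apply] at this
  have h1 := hi v.1
  simp only [vsc_apply, vec]
  field_simp
  linear_combination this

theorem dl_eq_zero {y y' : Pnt io E} (h : NZ y) (h' : NZ y') : dl y y' = 0 ↔ Par y y' := by
  rw [dl, wg_eq_zero h']
  constructor
  · rintro ⟨l, hl⟩
    have e : y = scl l y' := funext fun j => funext fun i => congrFun hl ⟨j, i⟩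
    refine ⟨l, fun j h0 => ?_, e⟩
    obtain ⟨i, hi⟩ := h j
    exact hi (by rw [e, scl, h0, zero_mul])
  · rintro ⟨c, -, rfl⟩
    exact ⟨c, rfl⟩

theorem dd_apply (y y' : Pnt io E) (a b : Vr io → E) :
    dd y y' (a, b) = wg a (vec y') + wg (vec y) b := rfl

theorem dd_scl (c : J → E) (y' : Pnt io E) (a b : Vr io → E) :
    dd (scl c y') y' (a, b) = wg (a - vsc c b) (vec y') := by
  rw [dd_apply, vec_scl, wg_vsc, wg_swap (vec y'), map_sub, LinearMap.sub_apply, sub_eq_add_neg]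

theorem mem_TP {y y' : Pnt io E} (h : Par y y') {w : Dg io → E} :
    w ∈ TP y y' ↔ ∃ τ, wg τ (vec y') = w := by
  obtain ⟨c, -, rfl⟩ := h
  constructor
  · rintro ⟨⟨a, b⟩, rfl⟩; exact ⟨_, (dd_scl c y' a b).symm⟩
  · rintro ⟨τ, rfl⟩; exact ⟨(τ, 0), by rw [dd_scl]; simp⟩

theorem mem_TY (T : Tgt io A) {y y' : Pnt io E} (h : Par y y') {w : Dg io → E} :
    w ∈ TY T y y' ↔ ∃ τ, T.jac y τ = 0 ∧ wg τ (vec y') = w := by
  obtain ⟨c, -, rfl⟩ := h
  constructor
  · rintro ⟨⟨a, b⟩, ⟨ha, hb⟩, rfl⟩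
    refine ⟨_, ?_, (dd_scl c y' a b).symm⟩
    have hb' : T.jac y' b = 0 := hb
    rw [map_sub, show T.jac _ a = 0 from ha, zero_sub, neg_eq_zero]
    funext α
    rw [jac_scl, hb']; simp
  · rintro ⟨τ, h0, rfl⟩
    exact ⟨(τ, 0), ⟨h0, zero_mem _⟩, by rw [dd_scl]; simp⟩


theorem finrank_map_add {F G : Type*} [AddCommGroup F] [Module E F] [AddCommGroup G] [Module E G]
    (L : F →ₗ[E] G) (B : Submodule E F) [FiniteDimensional E B] :
    finrank E (B.map L) + finrank E (B ⊓ LinearMap.ker L : Submodule E F) = finrank E B := by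
  have := LinearMap.finrank_range_add_finrank_ker (L.domRestrict B)
  rw [LinearMap.range_domRestrict, LinearMap.ker_domRestrict] at this
  rw [← this, ← Submodule.finrank_map_subtype_eq B (Submodule.comap B.subtype (LinearMap.ker L)),
    Submodule.map_comap_subtype]

theorem finrank_ker_wg {y : Pnt io E} (h : NZ y) :
    finrank E (LinearMap.ker (wg.flip (vec y))) = Fintype.card J := by
  let L : (J → E) →ₗ[E] (Vr io → E) := LinearMap.pi fun v => vec y v • LinearMap.proj v.1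
  have hL : ∀ l, L l = vsc l (vec y) := fun l => funext fun v => by simp [L, mul_comm]
  have e : LinearMap.ker (wg.flip (vec y)) = LinearMap.range L := by
    ext τ
    rw [LinearMap.mem_ker, LinearMap.flip_apply, wg_eq_zero h]
    exact exists_congr fun l => by rw [hL, eq_comm]
  rw [e, LinearMap.finrank_range_of_inj, finrank_fintype_fun_eq_card]
  intro l l' hl
  rw [hL, hL] at hl
  exact scl_inj h (funext fun j => funext fun i => congrFun hl ⟨j, i⟩)

theorem dimP_add {y : Pnt io E} (h : NZ y) : dimP io + Fintype.card J = Fintype.card (Vr io) := by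
  rw [dimP, Fintype.card_sigma, ← Finset.card_univ, Finset.card_eq_sum_ones,
    ← Finset.sum_add_distrib]
  refine Finset.sum_congr rfl fun j _ => ?_
  obtain ⟨i, -⟩ := h j
  have := Fintype.card_pos_iff.2 ⟨i⟩
  omega

theorem finrank_TP {y y' : Pnt io E} (h : Par y y') (h' : NZ y') :
    finrank E (TP y y') = dimP io := by
  have e : TP y y' = LinearMap.range (wg.flip (vec y')) := Submodule.ext fun _ => mem_TP h
  have := LinearMap.finrank_range_add_finrank_ker (wg.flip (vec y'))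
  rw [finrank_ker_wg h', finrank_fintype_fun_eq_card, ← dimP_add h'] at this
  rw [e]; omega

theorem finrank_TY (T : Tgt io A) {y y' : Pnt io E} (h : Par y y') (h' : NZ y') (hO : T.On y) :
    finrank E (TY T y y') + finrank E (T.Nm y) = dimP io := by
  have e : TY T y y' = (LinearMap.ker (T.jac y)).map (wg.flip (vec y')) :=
    Submodule.ext fun _ => mem_TY T h
  have h1 := finrank_map_add (wg.flip (vec y')) (LinearMap.ker (T.jac y))
  have h2 : LinearMap.ker (wg.flip (vec y')) ≤ LinearMap.ker (T.jac y) := by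
    intro τ hτ
    obtain ⟨l, rfl⟩ := (wg_eq_zero h').1 hτ
    obtain ⟨c, -, rfl⟩ := h.symm
    have : vsc l (vec (scl c y)) = vsc (l * c) (vec y) := by funext v; simp [vec_scl, mul_assoc]
    rw [this]
    exact jac_euler T hO _
  rw [inf_eq_right.2 h2, finrank_ker_wg h'] at h1
  have h3 := LinearMap.finrank_range_add_finrank_ker (T.jac y)
  rw [finrank_fintype_fun_eq_card, ← dimP_add h'] at h3
  rw [e, Tgt.Nm]; omega

/-! ### the obstruction spaces -/

variable {T : Tgt io A} {z : Cfg io I E} {q q' : I}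

theorem mem_Vt {σ : A × I → E} : σ ∈ z.Vt T ↔ ∀ α, (fun q => σ (α, q)) ∈ z.V (T.k α) := by
  simp only [Cfg.Vt, Submodule.mem_iInf]; rfl

theorem mem_Eb {σ : A × I → E} : σ ∈ z.Eb T ↔
    (∀ α, (fun q => σ (α, q)) ∈ z.V (T.k α)) ∧ ∀ q, (fun α => σ (α, q)) ∈ T.Nm (z.y q) := by
  simp only [Cfg.Eb, Submodule.mem_inf, mem_Vt, Submodule.mem_iInf]; rfl

theorem mem_pair {z₁ : Cfg io I₁ E} {z₂ : Cfg io I₂ E} {κ : J → ℕ} {σ : I₁ ⊕ I₂ → E} :
    σ ∈ (pair z₁ z₂).V κ ↔ (fun q => σ (Sum.inl q)) ∈ z₁.V κ ∧ (fun q => σ (Sum.inr q)) ∈ z₂.V κ :=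
  Iff.rfl

theorem mem_Eb_pair {z₁ : Cfg io I₁ E} {z₂ : Cfg io I₂ E} {σ : A × (I₁ ⊕ I₂) → E} :
    σ ∈ (pair z₁ z₂).Eb T ↔ (fun x : A × I₁ => σ (x.1, Sum.inl x.2)) ∈ z₁.Eb T ∧
      (fun x : A × I₂ => σ (x.1, Sum.inr x.2)) ∈ z₂.Eb T := by
  simp only [mem_Eb, mem_pair, Sum.forall, forall_and]
  exact ⟨fun ⟨⟨a, b⟩, c, d⟩ => ⟨⟨a, c⟩, b, d⟩, fun ⟨⟨a, c⟩, b, d⟩ => ⟨⟨a, b⟩, c, d⟩⟩

theorem mem_jn {c : J → E} (h : z.y q = scl c (z.y q')) (h' : NZ (z.y q')) {κ : J → ℕ}
    {σ : I → E} : σ ∈ (jn z q q').V κ ↔ σ ∈ z.V κ ∧ σ q = chr c κ * σ q' := by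
  refine and_congr_right fun _ => ⟨fun H => H c h, fun H c' hc' => ?_⟩
  rwa [scl_inj h' (hc'.symm.trans h)]

theorem mem_Eb_jn {c : J → E} (h : z.y q = scl c (z.y q')) (h' : NZ (z.y q')) {σ : A × I → E} :
    σ ∈ (jn z q q').Eb T ↔ σ ∈ z.Eb T ∧ ∀ α, σ (α, q) = chr c (T.k α) * σ (α, q') := by
  simp only [mem_Eb, mem_jn h h', forall_and]
  exact ⟨fun ⟨⟨a, b⟩, c⟩ => ⟨⟨a, c⟩, b⟩, fun ⟨⟨a, c⟩, b⟩ => ⟨⟨a, b⟩, c⟩⟩

theorem mem_EE {c : J → E} (h : z.y q = scl c (z.y q')) {u : (A × I) ⊕ Dg io → E} :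
    u ∈ EE T z q q' ↔ (fun x => u (Sum.inl x)) ∈ z.Eb T ∧ ∃ τ : Vr io → E,
      (∀ α, u (Sum.inl (α, q)) - chr c (T.k α) * u (Sum.inl (α, q')) = T.jac (z.y q) τ α) ∧
      (fun x => u (Sum.inr x)) = wg τ (vec (z.y q')) := by
  refine and_congr_right fun hu => ⟨?_, ?_⟩
  · rintro ⟨a, b, h1, h2, h3⟩
    refine ⟨a - vsc c b, fun α => ?_, by rw [h3, h, dd_scl]⟩
    rw [congrFun h1 α, congrFun h2 α, map_sub, Pi.sub_apply, ← jac_scl, ← h]
  · rintro ⟨τ, h1, h2⟩
    obtain ⟨b, hb⟩ := (mem_Eb.1 hu).2 q'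
    refine ⟨τ + vsc c b, b, funext fun α => ?_, hb.symm, by rw [h2, h, dd_scl, add_sub_cancel_right]⟩
    rw [map_add, Pi.add_apply, ← h1 α, h, jac_scl, congrFun hb α, sub_add_cancel]

/-- first filtration: `EE → Eb` is onto … -/
theorem map_pl_EE : (EE T z q q').map (pl E _ _) = z.Eb T := by
  refine le_antisymm ?_ fun σ hσ => ?_
  · rintro _ ⟨u, hu, rfl⟩; exact hu.1
  · obtain ⟨a, ha⟩ := (mem_Eb.1 hσ).2 q
    obtain ⟨b, hb⟩ := (mem_Eb.1 hσ).2 q'
    exact ⟨Sum.elim σ (dd (z.y q) (z.y q') (a, b)), ⟨hσ, a, b, ha.symm, hb.symm, rfl⟩, rfl⟩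

/-- … with kernel the tangent space of the target -/
theorem ker_pl_EE : EE T z q q' ⊓ LinearMap.ker (pl E _ _) =
    (TY T (z.y q) (z.y q')).map (ir E _ _) := by
  ext u
  constructor
  · rintro ⟨⟨-, a, b, h1, h2, h3⟩, h0⟩
    have h0' : ∀ x, u (Sum.inl x) = 0 := fun x => congrFun h0 x
    refine ⟨_, ⟨(a, b), ⟨?_, ?_⟩, h3.symm⟩, ?_⟩
    · exact h1.symm.trans (funext fun α => h0' _)
    · exact h2.symm.trans (funext fun α => h0' _)
    · funext x; rcases x with x | x
      · exact (h0' x).symm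
      · rfl
  · rintro ⟨_, ⟨⟨a, b⟩, ⟨ha, hb⟩, rfl⟩, rfl⟩
    exact ⟨⟨zero_mem _, a, b, Eq.symm ha, Eq.symm hb, rfl⟩, rfl⟩

/-- second filtration: the kernel of `EE → TP` is the obstruction space of the glued datum -/
theorem ker_pr_EE (h : Par (z.y q) (z.y q')) (h' : NZ (z.y q')) (hO : T.On (z.y q)) :
    EE T z q q' ⊓ LinearMap.ker (pr' E _ _) = ((jn z q q').Eb T).map (il E _ _) := by
  obtain ⟨c, hc, h⟩ := h
  ext u
  rw [Submodule.mem_inf, mem_EE h]
  constructor
  · rintro ⟨⟨hu, τ, h1, h2⟩, h0⟩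
    refine ⟨_, (mem_Eb_jn h h').2 ⟨hu, fun α => ?_⟩, ?_⟩
    · obtain ⟨l, rfl⟩ := (wg_eq_zero h').1 (h2.symm.trans h0)
      have : vsc l (vec (z.y q')) = vsc (fun j => l j / c j) (vec (z.y q)) := by
        funext v; simp [h, vec_scl, ← mul_assoc, hc v.1]
      rw [← sub_eq_zero, h1 α, this, jac_euler T hO]; rfl
    · funext x; rcases x with x | x
      · rfl
      · exact (congrFun h0 x).symm
  · rintro ⟨σ, hσ, rfl⟩
    obtain ⟨h1, h2⟩ := (mem_Eb_jn h h').1 hσ
    exact ⟨⟨h1, 0, fun α => by rw [map_zero]; exact sub_eq_zero.2 (h2 α), by rw [map_zero]; rfl⟩,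
      rfl⟩

/-- every normal vector at `q` is the value of a section vanishing at `q'` -/
def EV (T : Tgt io A) (z : Cfg io I E) (q q' : I) : Prop :=
  ∀ n ∈ T.Nm (z.y q), ∃ σ ∈ z.Eb T, (fun α => σ (α, q)) = n ∧ ∀ α, σ (α, q') = 0

theorem ev_pair {z₁ : Cfg io I₁ E} {z₂ : Cfg io I₂ E} {q₁ : I₁} (q₂ : I₂)
    (h : ∀ n ∈ T.Nm (z₁.y q₁), ∃ σ ∈ z₁.Eb T, (fun α => σ (α, q₁)) = n) :
    EV T (pair z₁ z₂) (Sum.inl q₁) (Sum.inr q₂) := fun n hn => by
  obtain ⟨σ, hσ, e⟩ := h n hn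
  exact ⟨fun x => Sum.elim (fun q => σ (x.1, q)) 0 x.2, mem_Eb_pair.2 ⟨hσ, zero_mem _⟩, e,
    fun _ => rfl⟩

theorem map_pr_EE (h : Par (z.y q) (z.y q')) (hE : EV T z q q') :
    (EE T z q q').map (pr' E _ _) = TP (z.y q) (z.y q') := by
  refine le_antisymm ?_ fun w hw => ?_
  · rintro _ ⟨u, ⟨-, a, b, -, -, h3⟩, rfl⟩; exact ⟨(a, b), h3.symm⟩
  · obtain ⟨τ, rfl⟩ := (mem_TP h).1 hw
    obtain ⟨c, -, h⟩ := h
    obtain ⟨σ, hσ, e, e'⟩ := hE _ ⟨τ, rfl⟩
    refine ⟨Sum.elim σ (wg τ (vec (z.y q'))), (mem_EE h).2 ⟨hσ, τ, fun α => ?_, rfl⟩, rfl⟩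
    simpa [e' α] using congrFun e α

theorem il_injective (P Q : Type) : Function.Injective (il E P Q) :=
  fun _ _ h => funext fun x => congrFun h (Sum.inl x)

theorem ir_injective (P Q : Type) : Function.Injective (ir E P Q) :=
  fun _ _ h => funext fun x => congrFun h (Sum.inr x)

theorem finrank_EE : finrank E (EE T z q q') =
    finrank E (z.Eb T) + finrank E (TY T (z.y q) (z.y q')) := by
  rw [← finrank_map_add (pl E _ _) (EE T z q q'), map_pl_EE, ker_pl_EE,
    ← (Submodule.equivMapOfInjective _ (ir_injective _ _) _).finrank_eq]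

theorem finrank_EE' (h : Par (z.y q) (z.y q')) (h' : NZ (z.y q')) (hO : T.On (z.y q))
    (hE : EV T z q q') : finrank E (EE T z q q') = dimP io + finrank E ((jn z q q').Eb T) := by
  rw [← finrank_map_add (pr' E _ _) (EE T z q q'), map_pr_EE h hE, ker_pr_EE h h' hO,
    ← (Submodule.equivMapOfInjective _ (il_injective _ _) _).finrank_eq, finrank_TP h h']

theorem finrank_Eb_jn (h : Par (z.y q) (z.y q')) (h' : NZ (z.y q')) (hO : T.On (z.y q))
    (hE : EV T z q q') :
    finrank E ((jn z q q').Eb T) + finrank E (T.Nm (z.y q)) = finrank E (z.Eb T) := by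
  have h1 := finrank_EE' h h' hO hE
  have h2 := finrank_TY T h h' hO
  rw [finrank_EE] at h1
  omega

theorem finrank_Eb_pair (z₁ : Cfg io I₁ E) (z₂ : Cfg io I₂ E) :
    finrank E ((pair z₁ z₂).Eb T) = finrank E (z₁.Eb T) + finrank E (z₂.Eb T) := by
  rw [← finrank_prod]
  refine LinearEquiv.finrank_eq
    { toFun := fun σ => (⟨_, (mem_Eb_pair.1 σ.2).1⟩, ⟨_, (mem_Eb_pair.1 σ.2).2⟩)
      map_add' := fun _ _ => rfl
      map_smul' := fun _ _ => rfl
      invFun := fun σ => ⟨fun x => Sum.elim (fun q => σ.1.1 (x.1, q)) (fun q => σ.2.1 (x.1, q)) x.2,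
        mem_Eb_pair.2 ⟨σ.1.2, σ.2.2⟩⟩
      left_inv := fun σ => Subtype.ext (funext fun x => by rcases x with ⟨a, q | q⟩ <;> rfl)
      right_inv := fun _ => rfl }

end Crest.Agent.X262.Node22
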