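import Crest.Agent.X262.Node22.Red

/-! # Node algebra: gauge transformations -/

set_option autoImplicit false
set_option linter.unusedSectionVars false

noncomputable section

namespace Crest.Agent.X262.Node22

open Crest.Agent.X277 Crest.Agent.X277.BD Crest.Agent.X262.Vb Module MvPolynomial

variable {J : Type} [Fintype J] [DecidableEq J] {io : J → Type} [∀ j, Fintype (io j)]
  [∀ j, DecidableEq (io j)] {A : Type} [Fintype A] {E : Type} [Field E] [Algebra ℂ E]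
  {I I₁ I₂ P : Type} [Fintype I] [Fintype I₁] [Fintype I₂] [Fintype P]

theorem mem_sclS {c w : P → E} {U : Submodule E (P → E)} :
    w ∈ sclS c U ↔ ∃ u ∈ U, (fun x => c x * u x) = w := Iff.rfl

theorem mul_mem_sclS {c u : P → E} (hc : ∀ x, c x ≠ 0) {U : Submodule E (P → E)} :
    (fun x => c x * u x) ∈ sclS c U ↔ u ∈ U := by
  refine ⟨?_, fun h => ⟨u, h, rfl⟩⟩
  rintro ⟨u', h, e⟩
  rwa [show u = u' from funext fun x => (mul_left_cancel₀ (hc x) (congrFun e x)).symm]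

theorem eq_sclS {c : P → E} (hc : ∀ x, c x ≠ 0) {U U' : Submodule E (P → E)}
    (h : ∀ u, (fun x => c x * u x) ∈ U' ↔ u ∈ U) : U' = sclS c U := by
  ext w
  have : w = fun x => c x * ((c x)⁻¹ * w x) := funext fun x => by simp [hc x]
  rw [this, h, mul_mem_sclS hc]

theorem gau_y (c : I → J → E) (z : Cfg io I E) (q : I) : (z.gau c).y q = scl (c q) (z.y q) := rfl

/-- the scalars on the ambient bundle -/
def gE (T : Tgt io A) (c : I → J → E) : A × I → E := fun x => chr (c x.2) (T.k x.1)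

/-- the scalars on the minors -/
def gD (c c' : J → E) : Dg io → E := fun x => c x.1 * c' x.1

variable {T : Tgt io A} {z : Cfg io I E} {q q' : I} {c : I → J → E}

theorem gE_ne (hc : ∀ q j, c q j ≠ 0) (x : A × I) : gE T c x ≠ 0 := chr_ne (hc _) _

theorem gD_ne {c c' : J → E} (hc : ∀ j, c j ≠ 0) (hc' : ∀ j, c' j ≠ 0) (x : Dg io) :
    gD c c' x ≠ 0 := mul_ne_zero (hc _) (hc' _)

theorem mul_mem_gau (hc : ∀ q j, c q j ≠ 0) {κ : J → ℕ} {σ : I → E} :
    (fun q => chr (c q) κ * σ q) ∈ (z.gau c).V κ ↔ σ ∈ z.V κ :=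
  mul_mem_sclS fun q => chr_ne (hc q) κ

theorem mul_mem_Eb (hc : ∀ q j, c q j ≠ 0) {σ : A × I → E} :
    (fun x => gE T c x * σ x) ∈ (z.gau c).Eb T ↔ σ ∈ z.Eb T := by
  simp only [mem_Eb]
  exact and_congr (forall_congr' fun α => mul_mem_gau hc)
    (forall_congr' fun q => mem_Nm_scl T (hc q))

theorem Eb_gau (hc : ∀ q j, c q j ≠ 0) : (z.gau c).Eb T = sclS (gE T c) (z.Eb T) :=
  eq_sclS (gE_ne hc) fun _ => mul_mem_Eb hc


theorem wg_vsc_vsc (c c' : J → E) (a b : Vr io → E) (x : Dg io) :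
    wg (vsc c a) (vsc c' b) x = gD c c' x * wg a b x := by
  simp only [wg_apply, vsc_apply, gD]; ring

theorem dl_scl (c c' : J → E) (y y' : Pnt io E) (x : Dg io) :
    dl (scl c y) (scl c' y') x = gD c c' x * dl y y' x := wg_vsc_vsc c c' _ _ x

theorem dd_scl_scl (c c' : J → E) (y y' : Pnt io E) (a b : Vr io → E) :
    dd (scl c y) (scl c' y') (vsc c a, vsc c' b) = fun x => gD c c' x * dd y y' (a, b) x := by
  funext x
  simp only [dd_apply, vec_scl, Pi.add_apply, wg_vsc_vsc, mul_add]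

theorem jac_scl_eq_zero (T : Tgt io A) {c : J → E} (hc : ∀ j, c j ≠ 0) {y : Pnt io E}
    {a : Vr io → E} : T.jac (scl c y) (vsc c a) = 0 ↔ T.jac y a = 0 := by
  simp only [funext_iff, jac_scl, Pi.zero_apply, mul_eq_zero, chr_ne hc, false_or]

theorem mul_inj {c u u' : P → E} (hc : ∀ x, c x ≠ 0) :
    ((fun x => c x * u x) = fun x => c x * u' x) ↔ u = u' :=
  ⟨fun h => funext fun x => mul_left_cancel₀ (hc x) (congrFun h x), fun h => h ▸ rfl⟩

theorem TP_scl {c c' : J → E} (hc : ∀ j, c j ≠ 0) (hc' : ∀ j, c' j ≠ 0) (y y' : Pnt io E) :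
    TP (scl c y) (scl c' y') = sclS (gD c c') (TP y y') := by
  refine eq_sclS (gD_ne hc hc') fun w => ⟨?_, ?_⟩
  · rintro ⟨⟨a, b⟩, h⟩
    obtain ⟨a, rfl⟩ := vsc_surj hc a
    obtain ⟨b, rfl⟩ := vsc_surj hc' b
    rw [dd_scl_scl, mul_inj (gD_ne hc hc')] at h
    exact ⟨_, h⟩
  · rintro ⟨⟨a, b⟩, rfl⟩
    exact ⟨_, dd_scl_scl c c' y y' a b⟩

theorem TY_scl (T : Tgt io A) {c c' : J → E} (hc : ∀ j, c j ≠ 0) (hc' : ∀ j, c' j ≠ 0)
    (y y' : Pnt io E) : TY T (scl c y) (scl c' y') = sclS (gD c c') (TY T y y') := by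
  refine eq_sclS (gD_ne hc hc') fun w => ⟨?_, ?_⟩
  · rintro ⟨⟨a, b⟩, ⟨ha, hb⟩, h⟩
    obtain ⟨a, rfl⟩ := vsc_surj hc a
    obtain ⟨b, rfl⟩ := vsc_surj hc' b
    rw [dd_scl_scl, mul_inj (gD_ne hc hc')] at h
    exact ⟨(a, b), ⟨(jac_scl_eq_zero T hc (a := a)).1 ha, (jac_scl_eq_zero T hc' (a := b)).1 hb⟩, h⟩
  · rintro ⟨⟨a, b⟩, ⟨ha, hb⟩, rfl⟩
    exact ⟨(vsc c a, vsc c' b), ⟨(jac_scl_eq_zero T hc (a := a)).2 ha,
      (jac_scl_eq_zero T hc' (a := b)).2 hb⟩, dd_scl_scl c c' y y' a b⟩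

/-- the scalars on the bundle which contains `EE` -/
def gS (T : Tgt io A) (c : I → J → E) (q q' : I) : (A × I) ⊕ Dg io → E :=
  Sum.elim (gE T c) (gD (c q) (c q'))

theorem gS_ne (hc : ∀ q j, c q j ≠ 0) : ∀ x, gS T c q q' x ≠ 0
  | Sum.inl x => gE_ne hc x
  | Sum.inr x => gD_ne (hc q) (hc q') x


theorem EE_gau (hc : ∀ q j, c q j ≠ 0) :
    EE T (z.gau c) q q' = sclS (gS T c q q') (EE T z q q') := by
  refine eq_sclS (gS_ne hc) fun u => and_congr (mul_mem_Eb hc) ⟨?_, ?_⟩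
  · rintro ⟨a, b, h1, h2, h3⟩
    obtain ⟨a, rfl⟩ := vsc_surj (hc q) a
    obtain ⟨b, rfl⟩ := vsc_surj (hc q') b
    refine ⟨a, b, funext fun α => mul_left_cancel₀ (chr_ne (hc q) (T.k α)) ?_,
      funext fun α => mul_left_cancel₀ (chr_ne (hc q') (T.k α)) ?_, ?_⟩
    · exact (congrFun h1 α).trans (jac_scl T _ _ _ α)
    · exact (congrFun h2 α).trans (jac_scl T _ _ _ α)
    · exact (mul_inj (gD_ne (hc q) (hc q'))).1 (h3.trans (dd_scl_scl _ _ _ _ a b))
  · rintro ⟨a, b, h1, h2, h3⟩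
    refine ⟨vsc (c q) a, vsc (c q') b, funext fun α => ?_, funext fun α => ?_, ?_⟩
    · exact (congrArg (chr (c q) (T.k α) * ·) (congrFun h1 α)).trans (jac_scl T _ _ _ α).symm
    · exact (congrArg (chr (c q') (T.k α) * ·) (congrFun h2 α)).trans (jac_scl T _ _ _ α).symm
    · exact ((mul_inj (gD_ne (hc q) (hc q'))).2 h3).trans (dd_scl_scl _ _ _ _ a b).symm

theorem jn_gau (hc : ∀ q j, c q j ≠ 0) : (jn z q q').gau c = jn (z.gau c) q q' := by
  unfold Cfg.gau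
  congr 1
  funext κ
  refine (eq_sclS (fun q => chr_ne (hc q) κ) fun σ => and_congr (mul_mem_gau hc) ⟨?_, ?_⟩).symm
  · intro h l hl
    have := h (fun j => c q j * l j / c q' j) (by
      funext j i
      simp only [scl, show z.y q j i = l j * z.y q' j i from congrFun (congrFun hl j) i]
      have := hc q' j
      field_simp)
    have e : chr (fun j => c q j * l j / c q' j) κ * chr (c q') κ = chr (c q) κ * chr l κ := by
      rw [← chr_mul, ← chr_mul]; congr 1; funext j; simp [hc q' j]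
    refine mul_left_cancel₀ (chr_ne (hc q) κ) ?_
    rw [← mul_assoc, ← e, mul_assoc]; exact this
  · intro h l hl
    have := h (fun j => l j * c q' j / c q j) (by
      funext j i
      have h1 : c q j * z.y q j i = l j * (c q' j * z.y q' j i) := congrFun (congrFun hl j) i
      have := hc q j
      simp only [scl]
      field_simp
      linear_combination h1)
    have e : chr (c q) κ * chr (fun j => l j * c q' j / c q j) κ = chr l κ * chr (c q') κ := by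
      rw [← chr_mul, ← chr_mul]; congr 1; funext j
      have := hc q j
      simp only [Pi.mul_apply]; field_simp
    change chr (c q) κ * σ q = chr l κ * (chr (c q') κ * σ q')
    rw [this, ← mul_assoc, e, mul_assoc]

theorem pair_gau (z₁ : Cfg io I₁ E) (z₂ : Cfg io I₂ E) {c : I₁ ⊕ I₂ → J → E}
    (hc : ∀ q j, c q j ≠ 0) :
    (pair z₁ z₂).gau c = pair (z₁.gau fun q => c (Sum.inl q)) (z₂.gau fun q => c (Sum.inr q)) := by
  unfold Cfg.gau
  congr 1
  · funext x; rcases x with q | q <;> rfl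
  · funext κ
    exact (eq_sclS (fun q => chr_ne (hc q) κ) fun σ => and_congr
      (mul_mem_gau (z := z₁) fun q => hc (Sum.inl q))
      (mul_mem_gau (z := z₂) fun q => hc (Sum.inr q))).symm

theorem Par.scl {y y' : Pnt io E} (h : Par y y') {c c' : J → E} (hc : ∀ j, c j ≠ 0)
    (hc' : ∀ j, c' j ≠ 0) : Par (scl c y) (scl c' y') :=
  (Par.trans ⟨c, hc, rfl⟩ h).trans (Par.symm ⟨c', hc', rfl⟩)


theorem EV.gau (h : EV T z q q') (hc : ∀ q j, c q j ≠ 0) : EV T (z.gau c) q q' := by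
  intro n hn
  have e : n = fun α => chr (c q) (T.k α) * ((chr (c q) (T.k α))⁻¹ * n α) :=
    funext fun α => by simp [chr_ne (hc q)]
  rw [e] at hn
  obtain ⟨σ, hσ, h1, h2⟩ := h _ ((mem_Nm_scl T (hc q)).1 hn)
  refine ⟨_, (mul_mem_Eb hc).2 hσ, ?_, fun α => by simp [h2]⟩
  rw [e]; funext α
  rw [congrFun h1 α]; simp [gE]

theorem nrm_ne (V : RZ ℂ E) (z : Cfg io I E) (q : I) (j : J) : z.nrm V q j ≠ 0 :=
  inv_ne_zero (gen_ne _ _)

theorem prim_nrm (V : RZ ℂ E) (h : NZ (z.y q)) : Prim V ((z.gau (z.nrm V)).y q) := fun j => by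
  have h0 := val_ne (ln (z.y q) j) V
  refine ⟨fun i => RZ.le_one_iff.1 ?_, ?_⟩
  · change V.v (_ * _) ≤ 1
    rw [map_mul, Cfg.nrm, map_inv₀, v_gen, inv_mul_le_one₀ (val_pos _ _)]
    exact mem_Sec_mxf _ i V
  · obtain ⟨i, hi⟩ := exists_val_mxf (k := ℂ) (h j) V
    refine ⟨i, ?_⟩
    change V.v (_ * _) = 1
    rw [map_mul, Cfg.nrm, map_inv₀, v_gen, hi]
    exact inv_mul_cancel₀ h0

variable {E' : Type} [Field E'] [Algebra ℂ E'] {p : Pl ℂ E ℂ E'}

theorem pair_red (z₁ : Cfg io I₁ E) (z₂ : Cfg io I₂ E) :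
    (pair z₁ z₂).red p = pair (z₁.red p) (z₂.red p) := by
  rw [Cfg.red, pair_gau _ _ (nrm_ne _ _), pair_red0]; rfl

/-- gluing of a pair commutes with reduction -/
theorem jn_red' (hP : Par (z.y q) (z.y q')) (h : NZ (z.y q)) (h' : NZ (z.y q')) {κ : J → ℕ}
    (hv : ∃ σ ∈ (z.red p).V κ, σ q ≠ 0 ∧ σ q' = 0) :
    ((jn z q q').red p).V κ = (jn (z.red p) q q').V κ := by
  rw [Cfg.red, jn_gau (nrm_ne _ _)]
  exact jn_red (hP.scl (nrm_ne _ _ _) (nrm_ne _ _ _)) (prim_nrm _ h) (prim_nrm _ h') hv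

end Crest.Agent.X262.Node22
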